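import Vale.Agent.P231.H512.Iso3

/-! P231: two orthogonal directions in different fibres end at points at maximal distance. -/

set_option maxSynthPendingDepth 3
set_option linter.unusedSectionVars false

open Bundle Manifold Set Filter Module
open scoped ContDiff Manifold Topology

namespace Vale.Agent.P231Z

noncomputable section

open Vale.Agent.P234 Vale.Agent.P231 Vale.Agent.P231.H703 Vale.Agent.P231.H775
  Vale.Agent.P231.H512

variable {E : Type*} [NormedAddCommGroup E] [NormedSpace ℝ E] [FiniteDimensional ℝ E]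
  {M : Type*} [MetricSpace M] [ChartedSpace E M]
  [RiemannianBundle (fun x : M => TangentSpace 𝓘(ℝ, E) x)]
  [IsManifold 𝓘(ℝ, E) ∞ M]
  [IsContMDiffRiemannianBundle 𝓘(ℝ, E) ∞ E (fun x : M => TangentSpace 𝓘(ℝ, E) x)]
  {e : ∀ x : M, TangentSpace 𝓘(ℝ, E) x → M}
  [CompactSpace M] [ConnectedSpace M] [IsRiemannianManifold 𝓘(ℝ, E) M]

/-- the endpoint of a geodesic of length `D` is at distance `D` -/
theorem dist_end {D : ℝ} {l : ℕ} (R : Rig e D l) (y : M) {u : E} (hu : nm y u = 1) :
    dist y (e y (D • u : E)) = D := by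
  have h1 : nm y (D • u) = D := by rw [nm_smul, hu, mul_one, abs_of_pos R.pos]
  exact (R.inj y (D • u : E) h1.le).trans h1

/-- two orthogonal unit vectors in different fibres end at points at distance `D` -/
theorem frame_dist {D : ℝ} {l : ℕ} (R : Rig e D l) {P : ∀ _ : M, E → E →ₗ[ℝ] E}
    (hP : ∀ x, PData e D l x (P x)) (y : M) {u u' : E} (hu : nm y u = 1) (hu' : nm y u' = 1)
    (h0 : ip y u u' = 0) (h1 : P y u u' = 0) :
    dist (e y (D • u : E)) (e y (D • u' : E)) = D := by
  obtain ⟨τ, L, hτ, hLi, hL⟩ := refl_exists R.facts R.pos R.closed R.symm y hu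
  have h2 := refl_core R.facts R.pos R.closed hP hu rfl (τ := τ) hτ (L := L.toLinearMap) hL hLi u'
  rw [h0, h1, zero_smul, add_zero, smul_zero, sub_zero] at h2
  have h3 : L u' = u' := h2
  have h4 : τ (e y (D • u' : E)) = e y (D • u' : E) := by
    rw [hL, map_smul, h3]
  rcases dist_of_fixed R.facts R.inj R.diam (σ := τ) hτ h4 with h5 | h5
  · exfalso
    have h6 := (same_point_iff R.facts R.pos R.closed hP R.symm y hu hu').1 (dist_eq_zero.1 h5)
    rw [h0, h1, zero_smul, add_zero] at h6
    have h7 : nm y u' = 0 := by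
      have h8 := nm_smul y u' 0
      rw [zero_smul, abs_zero, zero_mul] at h8
      rw [h6]
      exact h8
    rw [hu'] at h7
    exact one_ne_zero h7
  · exact h5

end

end Vale.Agent.P231Z
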