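import Vale.Agent.P231Z.Sph.Sphere

/-! P231: the isometry with the real projective space. -/

set_option maxSynthPendingDepth 3
set_option linter.unusedSectionVars false

open Bundle Manifold Set Filter Module
open scoped ContDiff Manifold Topology

namespace Vale.Agent.P231Z.Sph

noncomputable section

open Vale.Agent.P234 Vale.Agent.P231 Vale.Agent.P231.H703 Vale.Agent.P231.H775
  Vale.Agent.P231.H512

theorem hasDerivAt_shift {V : Type*} [NormedAddCommGroup V] [InnerProductSpace ℝ V] {u : V}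
    (hu : ‖u‖ = 1) (w : V) {r : ℝ} (hr0 : 0 < r) (c : ℝ) :
    HasDerivAt (fun t : ℝ => (r • u + t • w) - (c / ‖r • u + t • w‖) • (r • u + t • w))
      ((inner ℝ u w : ℝ) • u + (1 - c / r) • (w - (inner ℝ u w : ℝ) • u)) 0 := by
  set a : ℝ := inner ℝ u w with ha
  have hη : HasDerivAt (fun t : ℝ => r • u + t • w) w 0 := by
    have h1 := ((hasDerivAt_id (0 : ℝ)).smul_const w).const_add (r • u)
    rw [one_smul] at h1
    exact h1
  have h0 : r • u + (0 : ℝ) • w = r • u := by rw [zero_smul, add_zero]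
  have hr : ‖r • u + (0 : ℝ) • w‖ = r := by
    rw [h0, norm_smul, hu, mul_one, Real.norm_of_nonneg hr0.le]
  have hnorm : HasDerivAt (fun t : ℝ => ‖r • u + t • w‖) a 0 := by
    have h1 := (hη.norm_sq).sqrt (by
      rw [hr]
      positivity)
    have h2 : (fun s : ℝ => √(‖r • u + s • w‖ ^ 2)) = fun s : ℝ => ‖r • u + s • w‖ :=
      funext fun s => Real.sqrt_sq (norm_nonneg _)
    rw [h2, hr, Real.sqrt_sq hr0.le, h0, real_inner_smul_left, ← ha] at h1
    have h3 : 2 * (r * a) / (2 * r) = a := by field_simp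
    rw [h3] at h1
    exact h1
  have hq : HasDerivAt (fun t : ℝ => c / ‖r • u + t • w‖) ((0 * r - c * a) / r ^ 2) 0 := by
    have h1 := (hasDerivAt_const (0 : ℝ) c).div hnorm (by rw [hr]; exact hr0.ne')
    rw [hr] at h1
    exact h1
  refine (hη.sub (hq.smul hη)).congr_deriv ?_
  rw [hr, h0]
  have := hr0.ne'
  match_scalars
  · ring
  · field_simp
    ring

variable {E : Type*} [NormedAddCommGroup E] [NormedSpace ℝ E] [FiniteDimensional ℝ E]
  {M : Type*} [MetricSpace M] [ChartedSpace E M]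
  [RiemannianBundle (fun x : M => TangentSpace 𝓘(ℝ, E) x)]
  [IsManifold 𝓘(ℝ, E) ∞ M]
  [IsContMDiffRiemannianBundle 𝓘(ℝ, E) ∞ E (fun x : M => TangentSpace 𝓘(ℝ, E) x)]
  {e : ∀ x : M, TangentSpace 𝓘(ℝ, E) x → M}
  [CompactSpace M] [ConnectedSpace M] [IsRiemannianManifold 𝓘(ℝ, E) M]
  {H : Type*} [NormedAddCommGroup H] [InnerProductSpace ℝ H]

theorem nm_zero (x : M) : nm x (0 : E) = 0 := by
  have h8 := nm_smul x (0 : E) 0
  rwa [zero_smul, abs_zero, zero_mul] at h8

theorem proj_zero {D : ℝ} {x : M} {P : E → E →ₗ[ℝ] E} (hP : PData e D 0 x P) {u : E}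
    (hu : nm x u = 1) (w : E) : P u w = 0 := by
  have h1 := Submodule.finrank_eq_zero.1 (hP.rank u hu)
  have h2 : P u w ∈ LinearMap.range (P u) := LinearMap.mem_range_self _ _
  rw [h1] at h2
  exact (Submodule.mem_bot ℝ).1 h2

/-- the differential of the exponential map after one period -/
theorem dE_shift (F : Facts e) {D : ℝ} (hD : 0 < D)
    (hcl : ∀ (x : M) (v : E), nm x v = 2 * D → e x v = x) {p : M}
    {u : TangentSpace 𝓘(ℝ, E) p} (hu : ‖u‖ = 1) (w : TangentSpace 𝓘(ℝ, E) p) {r : ℝ}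
    (hr0 : 0 < r) :
    nm (E := E) (e p (r • u)) (dE (E := E) e p (r • u) w) =
      nm (E := E) (e p ((2 * D - r) • (-u))) (dE (E := E) e p ((2 * D - r) • (-u))
        ((inner ℝ u w : ℝ) • u + (1 - 2 * D / r) • (w - (inner ℝ u w : ℝ) • u))) := by
  have hη : HasDerivAt (fun t : ℝ => r • u + t • w) w 0 := by
    have h1 := ((hasDerivAt_id (0 : ℝ)).smul_const w).const_add (r • u)
    rw [one_smul] at h1
    exact h1
  have hη' := hasDerivAt_shift hu w hr0 (2 * D)
  have h0 : r • u + (0 : ℝ) • w = r • u := by rw [zero_smul, add_zero]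
  have hr : ‖r • u‖ = r := by rw [norm_smul, hu, mul_one, Real.norm_of_nonneg hr0.le]
  have h0' : (r • u + (0 : ℝ) • w) - (2 * D / ‖r • u + (0 : ℝ) • w‖) • (r • u + (0 : ℝ) • w) =
      (2 * D - r) • (-u) := by
    rw [h0, hr]
    have := hr0.ne'
    match_scalars
    field_simp
    ring
  have hev : (fun t : ℝ => e p (r • u + t • w)) =ᶠ[𝓝 0] fun t : ℝ =>
      e p ((r • u + t • w) - (2 * D / ‖r • u + t • w‖) • (r • u + t • w)) := by
    have h1 : ∀ᶠ t : ℝ in 𝓝 0, r • u + t • w ≠ 0 := by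
      refine hη.continuousAt.eventually_ne ?_
      rw [← norm_ne_zero_iff, h0, hr]
      exact hr0.ne'
    filter_upwards [h1] with t ht
    generalize r • u + t • w = v at ht
    have h2 : ‖v‖ ≠ 0 := norm_ne_zero_iff.2 ht
    have h3 : ‖‖v‖⁻¹ • v‖ = 1 := by rw [norm_smul, norm_inv, norm_norm, inv_mul_cancel₀ h2]
    have h4 := symm_reduce F hD hcl h3 (-1) ‖v‖
    have h5 : ‖v‖ • ‖v‖⁻¹ • v = v := by rw [smul_smul, mul_inv_cancel₀ h2, one_smul]
    have h6 : (‖v‖ + ((-1 : ℤ) : ℝ) * (2 * D)) • ‖v‖⁻¹ • v = v - (2 * D / ‖v‖) • v := by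
      push_cast
      match_scalars
      field_simp
      ring
    rw [h5, h6] at h4
    exact h4.symm
  have h1 := mfderiv_exp_curve F.isExp p hη
  have h2 := mfderiv_exp_curve F.isExp p hη'
  have h3 := congrArg (fun L : ℝ →L[ℝ] E => L 1) (hev.mfderiv_eq (I := 𝓘(ℝ, ℝ)) (I' := 𝓘(ℝ, E)))
  have h4 := (h1.symm.trans h3).trans h2
  have h5 := hev.eq_of_nhds
  simp only [h0'] at h4 h5
  simp only [h0] at h4 h5
  rw [h5]
  exact congrArg (nm (E := E) (e p ((2 * D - r) • (-u)))) h4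

theorem roundAt_proj {D : ℝ} (R : Rig e D 0) (p : M) : RoundAt e p (Real.pi / (2 * D)) := by
  obtain ⟨P, hP⟩ := R.proj
  have hD := R.pos
  set k := Real.pi / (2 * D) with hkd
  have hk : 0 < k := by
    have := Real.pi_pos
    positivity
  have hkD : k * (2 * D) = Real.pi := div_mul_cancel₀ _ (by positivity)
  have h1 : ∀ (u w : E) (r : ℝ), nm p u = 1 → r ∈ Ioo 0 D →
      nm (e p (r • u : E)) (dE e p (r • u) w) ^ 2 =
      ip p u w ^ 2 + (Real.sin (k * r) / (k * r)) ^ 2 * nm p (w - ip p u w • u) ^ 2 := by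
    intro u w r hu hr
    have h2 := metric_formula R.facts (hP p) hu hr w
    have h3 : Real.pi * r / (2 * D) = k * r := by
      rw [hkd]
      ring
    rw [proj_zero (hP p) hu, nm_zero, h3] at h2
    rw [h2]
    ring
  have h2 : ∀ (u w : E), nm p u = 1 →
      nm (e p (D • u : E)) (dE e p (D • u) w) ^ 2 =
      ip p u w ^ 2 + (Real.sin (k * D) / (k * D)) ^ 2 * nm p (w - ip p u w • u) ^ 2 := by
    intro u w hu
    have h3 := ((continuous_sq R.facts p u w).tendsto D).mono_left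
      (nhdsWithin_le_nhds (s := Iio D))
    have h4 : ContinuousAt (fun r : ℝ => ip p u w ^ 2 +
        (Real.sin (k * r) / (k * r)) ^ 2 * nm p (w - ip p u w • u) ^ 2) D := by
      have h5 : ContinuousAt (fun r : ℝ => k * r) D := by fun_prop
      exact continuousAt_const.add ((((Real.continuous_sin.continuousAt.comp h5).div h5
        (by positivity)).pow 2).mul continuousAt_const)
    have h5 := h4.tendsto.mono_left (nhdsWithin_le_nhds (s := Iio D))
    refine tendsto_nhds_unique (h3.congr' ?_) h5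
    filter_upwards [Ioo_mem_nhdsLT hD] with r hr
    exact h1 u w r hu hr
  intro u w r hu hr0 hr
  rcases lt_trichotomy r D with h | h | h
  · exact h1 u w r hu ⟨hr0, h⟩
  · rw [h]
    exact h2 u w hu
  · have h3 : r < 2 * D := by
      rw [← hkD] at hr
      exact lt_of_mul_lt_mul_left hr hk.le
    set a := ip p u w with ha
    have h4 : nm (e p (r • u : E)) (dE e p (r • u) w) = nm (e p ((2 * D - r) • (-u) : E))
        (dE e p ((2 * D - r) • (-u)) (a • u + (1 - 2 * D / r) • (w - a • u))) :=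
      dE_shift R.facts hD R.closed (u := u) hu w hr0
    have h5 : nm p (-u) = 1 := by
      rw [← neg_one_smul ℝ u, nm_smul, hu, abs_neg, abs_one, mul_one]
    have h6 : ip p (-u) (a • u + (1 - 2 * D / r) • (w - a • u)) = -a := by
      rw [← neg_one_smul ℝ u, sph_ip_smul_left, sph_ip_add_right, sph_ip_smul_right,
        sph_ip_smul_right, sph_ip_sub_right, sph_ip_smul_right, ip_self, hu, ← ha]
      ring
    have h7 : a • u + (1 - 2 * D / r) • (w - a • u) - (-a) • (-u) =
        (1 - 2 * D / r) • (w - a • u) := by module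
    have h8 : k * (2 * D - r) = Real.pi - k * r := by rw [mul_sub, hkD]
    rw [h4, h1 _ _ _ h5 ⟨by linarith, by linarith⟩, h6, h7, nm_smul, mul_pow, sq_abs]
    nth_rewrite 1 [h8]
    rw [Real.sin_pi_sub]
    have h9 : 2 * D - r ≠ 0 := by linarith
    have := hk.ne'
    have := hr0.ne'
    field_simp
    ring

/-- the distance is bounded by the projective distance -/
theorem proj_le {D : ℝ} (R : Rig e D 0) {p : M} {u₀ : TangentSpace 𝓘(ℝ, E) p} (hu₀ : ‖u₀‖ = 1)
    {e0 : H} {ι : TangentSpace 𝓘(ℝ, E) p →L[ℝ] H} (h : Emb e0 ι)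
    {v w : TangentSpace 𝓘(ℝ, E) p} (hv : ‖v‖ ≤ 2 * D) (hw : ‖w‖ ≤ 2 * D) :
    |(inner ℝ (S (Real.pi / (2 * D)) e0 ι v) (S (Real.pi / (2 * D)) e0 ι w) : ℝ)| ≤
      Real.cos (Real.pi / (2 * D) * dist (e p v) (e p w)) := by
  have hD := R.pos
  have hR := roundAt_proj R p
  set k := Real.pi / (2 * D) with hkd
  have hk : 0 < k := by
    have := Real.pi_pos
    positivity
  have hkD : k * (2 * D) = Real.pi := div_mul_cancel₀ _ (by positivity)
  have hpk : Real.pi / k = 2 * D := by rw [div_eq_iff hk.ne', mul_comm, hkD]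
  have hc : ∀ u u' : TangentSpace 𝓘(ℝ, E) p, ‖u‖ = 1 → ‖u'‖ = 1 →
      e p ((Real.pi / k) • u) = e p ((Real.pi / k) • u') := by
    have h1 : ∀ u : TangentSpace 𝓘(ℝ, E) p, ‖u‖ = 1 → e p ((Real.pi / k) • u) = p := by
      intro u hu
      refine R.closed p _ ?_
      show ‖(Real.pi / k) • u‖ = _
      rw [hpk, norm_smul, hu, mul_one, Real.norm_of_nonneg (by positivity)]
    intro u u' hu hu'
    rw [h1 u hu, h1 u' hu']
  have hle : ∀ a : TangentSpace 𝓘(ℝ, E) p, ‖a‖ ≤ 2 * D → k * ‖a‖ ≤ Real.pi := fun a ha => by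
    rw [← hkD]
    exact mul_le_mul_of_nonneg_left ha hk.le
  have key : ∀ a b : TangentSpace 𝓘(ℝ, E) p, ‖a‖ ≤ 2 * D → ‖b‖ ≤ 2 * D →
      (inner ℝ (S k e0 ι a) (S k e0 ι b) : ℝ) ≤ Real.cos (k * dist (e p a) (e p b)) := by
    intro a b ha hb
    have h1 := le_angle' R.facts hk hR h hc hu₀ (hle a ha) (hle b hb)
    have h2 := abs_real_inner_le_norm (S k e0 ι a) (S k e0 ι b)
    rw [norm_S h hk.ne', norm_S h hk.ne', mul_one, abs_le] at h2
    rw [← Real.cos_arccos h2.1 h2.2]
    exact Real.cos_le_cos_of_nonneg_of_le_pi (by positivity) (Real.arccos_le_pi _) h1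
  rw [abs_le]
  refine ⟨?_, key v w hv hw⟩
  obtain ⟨u, hu, h1⟩ := polar hu₀ v
  have h2 : ‖(‖v‖ - 2 * D) • u‖ ≤ 2 * D := by
    rw [norm_smul, hu, mul_one, Real.norm_eq_abs, abs_le]
    constructor <;> linarith [norm_nonneg v]
  have h3 := key _ w h2 hw
  have h4 : S k e0 ι ((‖v‖ - 2 * D) • u) = -S k e0 ι v := by
    conv_rhs => rw [h1]
    rw [S_polar hk.ne' e0 ι hu, S_polar hk.ne' e0 ι hu, mul_sub, hkD, Real.cos_sub_pi,
      Real.sin_sub_pi]
    module
  have h5 : e p ((‖v‖ - 2 * D) • u) = e p v := by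
    have h6 := symm_reduce R.facts hD R.closed hu (-1) ‖v‖
    rw [← h1] at h6
    rw [← h6]
    congr 2
    push_cast
    ring
  rw [h4, h5, inner_neg_left] at h3
  linarith

/-- **A Blaschke manifold of model volume and cut multiplicity zero is a real projective
space.** -/
theorem isometric_proj {D : ℝ} {N : ℕ} (R : Rig e D 0) (hN : finrank ℝ E = N + 1) :
    ∃ Z : M → EuclideanSpace ℝ (Fin (N + 2)), (∀ x, ‖Z x‖ = 1) ∧
      (∀ x y, dist x y = 2 * D / Real.pi * Real.arccos |(inner ℝ (Z x) (Z y) : ℝ)|) ∧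
      ∀ z, ‖z‖ = 1 → ∃ x, |(inner ℝ (Z x) z : ℝ)| = 1 := by
  obtain ⟨p⟩ : Nonempty M := inferInstance
  obtain ⟨P, hP⟩ := R.proj
  have hD := R.pos
  have F := R.facts
  have hemb : ∀ q : M, ∃ ι : TangentSpace 𝓘(ℝ, E) q →L[ℝ] EuclideanSpace ℝ (Fin (N + 2)),
      Emb (EuclideanSpace.single 0 1) ι := fun q => by
    have hfin : FiniteDimensional ℝ (TangentSpace 𝓘(ℝ, E) q) :=
      inferInstanceAs (FiniteDimensional ℝ E)
    exact exists_emb (V := TangentSpace 𝓘(ℝ, E) q) (n := N + 1) hN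
  choose ι h using hemb
  set k := Real.pi / (2 * D) with hkd
  have hk : 0 < k := by
    have := Real.pi_pos
    positivity
  have hkD : k * D = Real.pi / 2 := by
    rw [hkd]
    field_simp
  have hL : ∀ q x, ‖symmL F q x‖ ≤ 2 * D := fun q x =>
    (symmL_norm F q x).trans_le ((R.diam q x).trans (by linarith))
  obtain ⟨Z, hZ⟩ : ∃ Z : M → M → EuclideanSpace ℝ (Fin (N + 2)),
      ∀ q x, Z q x = S k (EuclideanSpace.single 0 1) (ι q) (symmL F q x) := ⟨_, fun _ _ => rfl⟩
  have hZ1 : ∀ q x, ‖Z q x‖ = 1 := fun q x => by rw [hZ]; exact norm_S (h q) hk.ne' _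
  have hZ0 : ∀ q x, (inner ℝ (EuclideanSpace.single 0 1) (Z q x) : ℝ) =
      Real.cos (k * dist q x) := fun q x => by rw [hZ, inner_e0_S (h q), symmL_norm F]
  have hZle' : ∀ (q : M) (v : TangentSpace 𝓘(ℝ, E) q) (y : M), ‖v‖ ≤ 2 * D →
      |(inner ℝ (S k (EuclideanSpace.single 0 1) (ι q) v) (Z q y) : ℝ)| ≤
        Real.cos (k * dist (e q v) y) := by
    intro q v y hv
    obtain ⟨u₀, hu₀⟩ := exists_unit hN q
    have h1 := proj_le R hu₀ (h q) hv (hL q y)
    rw [symmL_exp F] at h1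
    rw [hZ]
    exact h1
  have hZle : ∀ q x y, |(inner ℝ (Z q x) (Z q y) : ℝ)| ≤ Real.cos (k * dist x y) := by
    intro q x y
    have h1 := hZle' q _ y (hL q x)
    rw [symmL_exp F, ← hZ] at h1
    exact h1
  have hcos : ∀ (v : TangentSpace 𝓘(ℝ, E) p) (y : M), ‖v‖ ≤ 2 * D →
      |(inner ℝ (S k (EuclideanSpace.single 0 1) (ι p) v) (Z p y) : ℝ)| =
        Real.cos (k * dist (e p v) y) := by
    intro v y hv
    let b : Fin (N + 1) → E := fun i =>
      fr y (EuclideanSpace.single (Fin.cast hN.symm i) (1 : ℝ))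
    have hb1 : ∀ i, nm y (b i) = 1 := fun i => by
      refine (nm_fr y _).trans ?_
      simp
    have hb0 : ∀ i j, i ≠ j → ip y (b i) (b j) = 0 := fun i j hij => by
      refine (ip_fr y _ _).trans ?_
      rw [EuclideanSpace.inner_single_left, PiLp.single_apply, if_neg, mul_zero]
      exact fun h => hij (Fin.cast_injective _ h)
    let Y : Fin (N + 2) → M := Fin.cons y fun i => e y (D • b i : E)
    have hY : ∀ i j, i ≠ j → dist (Y i) (Y j) = D := by
      intro i j
      refine Fin.cases ?_ (fun i => ?_) i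
      · refine Fin.cases (fun h => absurd rfl h) (fun j _ => ?_) j
        exact dist_end R y (hb1 j)
      · refine Fin.cases (fun _ => ?_) (fun j hij => ?_) j
        · rw [dist_comm]
          exact dist_end R y (hb1 i)
        · exact frame_dist R hP y (hb1 i) (hb1 j) (hb0 i j fun h => hij (by rw [h]))
            (proj_zero (hP y) (hb1 i) _)
    have hpar : ∀ (q : M) (z : EuclideanSpace ℝ (Fin (N + 2))), ‖z‖ = 1 →
        ∑ i, (inner ℝ z (Z q (Y i)) : ℝ) ^ 2 = 1 := by
      intro q z hz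
      have hon : Orthonormal ℝ fun i => Z q (Y i) := by
        refine ⟨fun i => hZ1 q _, fun i j hij => ?_⟩
        have h1 := hZle q (Y i) (Y j)
        rw [hY i j hij, hkD, Real.cos_pi_div_two] at h1
        exact abs_nonpos_iff.1 h1
      have hcard : Fintype.card (Fin (N + 2)) = finrank ℝ (EuclideanSpace ℝ (Fin (N + 2))) := by
        simp
      have h1 := (OrthonormalBasis.mk hon
        (hon.linearIndependent.span_eq_top_of_card_eq_finrank hcard).ge).sum_sq_inner_left z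
      rw [OrthonormalBasis.coe_mk, hz, one_pow] at h1
      exact h1
    have h1 := hpar (e p v) (EuclideanSpace.single 0 1) (h p).unit
    have h2 := hpar p _ (norm_S (h p) hk.ne' v)
    have h3 : ∀ i ∈ (Finset.univ : Finset (Fin (N + 2))),
        (inner ℝ (S k (EuclideanSpace.single 0 1) (ι p) v) (Z p (Y i)) : ℝ) ^ 2 ≤
        (inner ℝ (EuclideanSpace.single 0 1) (Z (e p v) (Y i)) : ℝ) ^ 2 := fun i _ => by
      rw [hZ0, ← sq_abs]
      exact pow_le_pow_left₀ (abs_nonneg _) (hZle' p v (Y i) hv) 2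
    have h4 := (Finset.sum_eq_sum_iff_of_le h3).1 (h2.trans h1.symm) 0 (Finset.mem_univ _)
    have h5 : Y 0 = y := rfl
    rw [h5, hZ0, ← sq_abs] at h4
    exact (sq_eq_sq₀ (abs_nonneg _) ((abs_nonneg _).trans (hZle' p v y hv))).1 h4
  refine ⟨Z p, hZ1 p, fun x y => ?_, fun z hz => ?_⟩
  · have h0 := hcos _ y (hL p x)
    rw [symmL_exp F, ← hZ] at h0
    rw [h0, Real.arccos_cos (by positivity) (by
      have h1 := mul_le_mul_of_nonneg_left (R.diam x y) hk.le
      linarith [Real.pi_pos]), hkd]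
    have := Real.pi_pos.ne'
    field_simp
  · obtain ⟨u₀, hu₀⟩ := exists_unit hN p
    obtain ⟨v, h1, h2⟩ := S_surj (h p) hk hu₀ hz
    have h3 : ‖v‖ ≤ 2 * D := by
      refine le_of_mul_le_mul_left ?_ hk
      linarith
    refine ⟨e p v, ?_⟩
    have h4 := hcos v (e p v) h3
    rw [h2, dist_self, mul_zero, Real.cos_zero, real_inner_comm] at h4
    exact h4

end

end Vale.Agent.P231Z.Sph
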