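import Vale.Agent.P231Z.Sph.Le

/-! P231: the isometry with the round sphere and with the circle. -/

set_option maxSynthPendingDepth 3
set_option linter.unusedSectionVars false

open Bundle Manifold Set Filter Module
open scoped ContDiff Manifold Topology

namespace Vale.Agent.P231Z.Sph

noncomputable section

open Vale.Agent.P234 Vale.Agent.P231 Vale.Agent.P231.H703 Vale.Agent.P231.H775
  Vale.Agent.P231.H512

variable {E : Type*} [NormedAddCommGroup E] [NormedSpace ℝ E] [FiniteDimensional ℝ E]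
  {M : Type*} [MetricSpace M] [ChartedSpace E M]
  [RiemannianBundle (fun x : M => TangentSpace 𝓘(ℝ, E) x)]
  [IsManifold 𝓘(ℝ, E) ∞ M]
  [IsContMDiffRiemannianBundle 𝓘(ℝ, E) ∞ E (fun x : M => TangentSpace 𝓘(ℝ, E) x)]
  {e : ∀ x : M, TangentSpace 𝓘(ℝ, E) x → M}
  [CompactSpace M] [ConnectedSpace M] [IsRiemannianManifold 𝓘(ℝ, E) M]
  {H : Type*} [NormedAddCommGroup H] [InnerProductSpace ℝ H]

theorem exists_unit {N : ℕ} (hN : finrank ℝ E = N + 1) (p : M) :
    ∃ u : TangentSpace 𝓘(ℝ, E) p, ‖u‖ = 1 := by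
  have h1 : 0 < finrank ℝ E := by omega
  refine ⟨(fr (E := E) p (EuclideanSpace.single (⟨0, h1⟩ : Fin (finrank ℝ E)) (1 : ℝ)) : E), ?_⟩
  refine (nm_fr (E := E) p _).trans ?_
  simp

/-- points at parameter distance `D` on a geodesic are at distance `D` -/
theorem dist_line (F : Facts e) {D : ℝ} (hD : 0 < D) (hB : InjGE e D) {p : M}
    {u : TangentSpace 𝓘(ℝ, E) p} (hu : ‖u‖ = 1) (r : ℝ) :
    dist (e p (r • u)) (e p ((r - D) • u)) = D := by
  have h1 := gam_flow F p (u : E) r (-D)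
  have h2 : nm (gam e p (u : E) r) ((-D) • vel e p (u : E) r) = D := by
    rw [nm_smul, abs_neg, abs_of_pos hD, (nm_vel F p u r).trans hu, mul_one]
  have h3 := (hB (gam e p (u : E) r) ((-D) • vel e p (u : E) r : E) h2.le).trans h2
  have h4 : e (gam e p (u : E) r) ((-D) • vel e p (u : E) r : E) = gam e p (u : E) (r - D) := h1
  rw [h4] at h3
  exact h3

theorem sphere_dist (F : Facts e) {D : ℝ} (hD : 0 < D) (hB : InjGE e D) {p : M}
    (hR : RoundAt e p (Real.pi / D))
    (hc : ∀ u u' : TangentSpace 𝓘(ℝ, E) p, ‖u‖ = 1 → ‖u'‖ = 1 → e p (D • u) = e p (D • u'))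
    {u₀ : TangentSpace 𝓘(ℝ, E) p} (hu₀ : ‖u₀‖ = 1) {e0 : H}
    {ι : TangentSpace 𝓘(ℝ, E) p →L[ℝ] H} (h : Emb e0 ι) {v w : TangentSpace 𝓘(ℝ, E) p}
    (hv : ‖v‖ ≤ D) (hw : ‖w‖ ≤ D) :
    Real.pi / D * dist (e p v) (e p w) =
      Real.arccos (inner ℝ (S (Real.pi / D) e0 ι v) (S (Real.pi / D) e0 ι w)) := by
  set k := Real.pi / D with hkd
  have hk : 0 < k := div_pos Real.pi_pos hD
  have hkD : k * D = Real.pi := div_mul_cancel₀ _ hD.ne'
  have hpk : Real.pi / k = D := by rw [div_eq_iff hk.ne', mul_comm, hkD]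
  have hc' : ∀ u u' : TangentSpace 𝓘(ℝ, E) p, ‖u‖ = 1 → ‖u'‖ = 1 →
      e p ((Real.pi / k) • u) = e p ((Real.pi / k) • u') := by
    rw [hpk]
    exact hc
  have hle : ∀ a : TangentSpace 𝓘(ℝ, E) p, ‖a‖ ≤ D → k * ‖a‖ ≤ Real.pi := fun a ha => by
    rw [← hkD]
    exact mul_le_mul_of_nonneg_left ha hk.le
  refine le_antisymm (le_angle' F hk hR h hc' hu₀ (hle v hv) (hle w hw)) ?_
  obtain ⟨u, hu, h1⟩ := polar hu₀ v
  have h2 : ‖(‖v‖ - D) • u‖ ≤ D := by
    rw [norm_smul, hu, mul_one, Real.norm_eq_abs, abs_le]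
    constructor <;> linarith [norm_nonneg v]
  have h3 := le_angle' F hk hR h hc' hu₀ (hle _ h2) (hle w hw)
  have h4 : S k e0 ι ((‖v‖ - D) • u) = -S k e0 ι v := by
    conv_rhs => rw [h1]
    rw [S_polar hk.ne' e0 ι hu, S_polar hk.ne' e0 ι hu, mul_sub, hkD, Real.cos_sub_pi,
      Real.sin_sub_pi]
    module
  rw [h4, inner_neg_left, Real.arccos_neg] at h3
  have h5 := dist_line F hD hB hu ‖v‖
  rw [← h1] at h5
  have h6 := dist_triangle_right (e p v) (e p ((‖v‖ - D) • u)) (e p w)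
  rw [h5] at h6
  have h7 := mul_le_mul_of_nonneg_left h6 hk.le
  rw [hkD, mul_add] at h7
  linarith

theorem sphere_end (F : Facts e) {D : ℝ} (hD : 0 < D) (hB : InjGE e D)
    (hd : ∀ x y : M, dist x y ≤ D) {N : ℕ} (hN : finrank ℝ E = N + 1) {p : M}
    (hR : RoundAt e p (Real.pi / D))
    (hc : ∀ u u' : TangentSpace 𝓘(ℝ, E) p, ‖u‖ = 1 → ‖u'‖ = 1 → e p (D • u) = e p (D • u')) :
    ∃ Z : M → EuclideanSpace ℝ (Fin (N + 2)), (∀ x, ‖Z x‖ = 1) ∧
      (∀ x y, dist x y = D / Real.pi * Real.arccos (inner ℝ (Z x) (Z y))) ∧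
      ∀ z, ‖z‖ = 1 → ∃ x, Z x = z := by
  obtain ⟨u₀, hu₀⟩ := exists_unit hN p
  have hfin : FiniteDimensional ℝ (TangentSpace 𝓘(ℝ, E) p) :=
    inferInstanceAs (FiniteDimensional ℝ E)
  obtain ⟨ι, h⟩ := exists_emb (V := TangentSpace 𝓘(ℝ, E) p) (n := N + 1) hN
  have hk : 0 < Real.pi / D := div_pos Real.pi_pos hD
  have hL : ∀ x, ‖symmL F p x‖ ≤ D := fun x => (symmL_norm F p x).trans_le (hd p x)
  refine ⟨fun x => S (Real.pi / D) (EuclideanSpace.single 0 1) ι (symmL F p x),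
    fun x => norm_S h hk.ne' _, fun x y => ?_, fun z hz => ?_⟩
  · have h1 := sphere_dist F hD hB hR hc hu₀ h (hL x) (hL y)
    rw [symmL_exp F, symmL_exp F] at h1
    rw [← h1]
    have := Real.pi_pos.ne'
    have := hD.ne'
    field_simp
  · obtain ⟨v, h1, h2⟩ := S_surj h hk hu₀ hz
    have h3 : ‖v‖ ≤ D := by
      refine le_of_mul_le_mul_left ?_ hk
      rwa [div_mul_cancel₀ _ hD.ne']
    refine ⟨e p v, ?_⟩
    have h4 := sphere_dist F hD hB hR hc hu₀ h (hL (e p v)) h3
    rw [symmL_exp F, dist_self, mul_zero, h2, eq_comm, Real.arccos_eq_zero] at h4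
    have h5 := norm_S h hk.ne' (symmL F p (e p v))
    have h6 := real_inner_le_norm
      (S (Real.pi / D) (EuclideanSpace.single 0 1) ι (symmL F p (e p v))) z
    rw [h5, hz, mul_one] at h6
    exact (inner_eq_one_iff_of_norm_eq_one (𝕜 := ℝ) h5 hz).1 (le_antisymm h6 h4)

/-- **A Blaschke manifold of model volume and maximal cut multiplicity is a round sphere.** -/
theorem isometric_sphere {D : ℝ} {N : ℕ} (R : Rig e D N) (hN : finrank ℝ E = N + 1) :
    ∃ Z : M → EuclideanSpace ℝ (Fin (N + 2)), (∀ x, ‖Z x‖ = 1) ∧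
      (∀ x y, dist x y = D / Real.pi * Real.arccos (inner ℝ (Z x) (Z y))) ∧
      ∀ z, ‖z‖ = 1 → ∃ x, Z x = z := by
  obtain ⟨p⟩ : Nonempty M := inferInstance
  obtain ⟨P, hP⟩ := R.proj
  have hD := R.pos
  refine sphere_end R.facts hD R.inj R.diam hN (p := p) (fun u w r hu hr0 hr => ?_)
    fun u u' hu hu' => sph_const R.facts hD R.closed hN (hP p) (u := u') (u' := u) hu' hu
  have hrD : r < D := by
    refine lt_of_mul_lt_mul_left ?_ (div_pos Real.pi_pos hD).le
    rwa [div_mul_cancel₀ _ hD.ne']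
  have h1 := metric_formula R.facts (hP p) hu ⟨hr0, hrD⟩ w
  have h2 : ip p u (w - ip p u w • u) = 0 := by
    rw [sph_ip_sub_right, sph_ip_smul_right, ip_self, hu]
    ring
  rw [(hP p).sph_full hN hu h2] at h1
  rw [h1]
  have h3 : Real.pi / D * r = 2 * (Real.pi * r / (2 * D)) := by field_simp
  have h4 : Real.pi * r / (2 * D) ≠ 0 := by
    have := Real.pi_pos
    positivity
  rw [h3, Real.sin_two_mul]
  generalize Real.pi * r / (2 * D) = t at *
  have h5 := Real.cos_sq_add_sin_sq t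
  have h6 : Real.cos t ^ 2 = 1 - Real.sin t ^ 2 := by linarith
  rw [div_pow, div_pow, mul_pow, mul_pow, mul_pow, h6]
  field_simp

/-- **A one-dimensional Blaschke manifold is a circle.** -/
theorem isometric_circle (he : IsExp e) (hinj : Blaschke.InjGeDiam e) (hN : finrank ℝ E = 1) :
    ∃ Z : M → EuclideanSpace ℝ (Fin 2), (∀ x, ‖Z x‖ = 1) ∧
      (∀ x y, dist x y = Metric.diam (univ : Set M) / Real.pi *
        Real.arccos (inner ℝ (Z x) (Z y))) ∧
      ∀ z, ‖z‖ = 1 → ∃ x, Z x = z := by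
  have F : Facts e := facts_of_isExp he
  obtain ⟨p⟩ : Nonempty M := inferInstance
  have hN' : finrank ℝ E = 0 + 1 := hN
  have hD : 0 < Metric.diam (univ : Set M) := diam_pos he hN' p
  have hB : InjGE e (Metric.diam (univ : Set M)) := injGE_of_injOn F hD hinj
  have hd : ∀ x y : M, dist x y ≤ Metric.diam (univ : Set M) := fun x y =>
    Metric.dist_le_diam_of_mem (isCompact_univ.isBounded) (mem_univ x) (mem_univ y)
  have hcl : ∀ (x : M) (v : E), nm x v = 2 * Metric.diam (univ : Set M) → e x v = x :=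
    fun x v hv => closed_of_inj_diam F hD hB hd x v hv
  generalize Metric.diam (univ : Set M) = D at *
  have hline : ∀ u w : E, nm p u = 1 → w = ip p u w • u := by
    intro u w hu
    have hu0 : u ≠ 0 := by
      rintro rfl
      have h8 := nm_smul p (0 : E) 0
      rw [zero_smul, abs_zero, zero_mul, hu] at h8
      exact one_ne_zero h8
    obtain ⟨c, hc⟩ := (finrank_eq_one_iff_of_nonzero' u hu0).1 hN w
    rw [← hc, sph_ip_smul_right, ip_self, hu, one_pow, mul_one]
  have h0 : ∀ x : M, nm x (0 : E) = 0 := fun x => by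
    have h8 := nm_smul x (0 : E) 0
    rwa [zero_smul, abs_zero, zero_mul] at h8
  refine sphere_end F hD hB hd hN' (p := p) (fun u w r hu hr0 _ => ?_) fun u u' hu hu' => ?_
  · have h1 := sph_split F p u hu hr0 (ip p u w) 0 (by
      have h2 := sph_ip_smul_left p 0 (0 : E) u
      rwa [zero_smul, zero_mul] at h2)
    have h2 : dE e p (r • u) (0 : E) = 0 := by
      have h3 := dE_smul e p (r • u) (0 : E) 0
      rwa [zero_smul, zero_smul] at h3
    rw [add_zero, ← hline u w hu, h2, h0] at h1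
    rw [← hline u w hu, sub_self, h0, zero_pow two_ne_zero, mul_zero]
    rw [zero_pow two_ne_zero] at h1
    exact h1
  · have key : ∀ u u' : E, nm p u = 1 → nm p u' = 1 → e p (D • u : E) = e p (D • u' : E) := by
      intro u u' h4 h3
      have h1 := hline u u' h4
      have h2 := nm_smul p u (ip p u u')
      rw [← h1, h3, h4, mul_one, eq_comm] at h2
      rcases (abs_eq zero_le_one).1 h2 with h5 | h5
      · rw [h5, one_smul] at h1
        rw [h1]
      · rw [h5, neg_one_smul] at h1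
        have h7 := symm_antipode F hD hcl p (D • u : E) (by
          rw [nm_smul, h4, mul_one, abs_of_pos hD])
        rw [h1, smul_neg]
        exact h7.symm
    exact key u u' hu hu'

end

end Vale.Agent.P231Z.Sph
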