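import Mathlib.Analysis.InnerProductSpace.Calculus
import Mathlib.Analysis.InnerProductSpace.PiL2
import Mathlib.Analysis.SpecialFunctions.Trigonometric.InverseDeriv
import Mathlib.Analysis.SpecialFunctions.Trigonometric.Sinc

/-! Polar coordinates on the round sphere. -/

set_option maxSynthPendingDepth 3
set_option linter.unusedSectionVars false

open Set Filter Module
open scoped Topology ContDiff

namespace Vale.Agent.P231Z.Sph

noncomputable section

variable {V : Type*} [NormedAddCommGroup V] [InnerProductSpace ℝ V]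
  {H : Type*} [NormedAddCommGroup H] [InnerProductSpace ℝ H]

/-- `H = ℝ e₀ ⊕ V` -/
structure Emb (e0 : H) (ι : V →L[ℝ] H) : Prop where
  unit : ‖e0‖ = 1
  orth : ∀ v, (inner ℝ e0 (ι v) : ℝ) = 0
  inn : ∀ v w, (inner ℝ (ι v) (ι w) : ℝ) = inner ℝ v w
  surj : ∀ z : H, ∃ (α : ℝ) (v : V), z = α • e0 + ι v

/-- the unit vector `cos(c‖v‖) e₀ + sin(c‖v‖) v/‖v‖` -/
def S (c : ℝ) (e0 : H) (ι : V →L[ℝ] H) (v : V) : H :=
  Real.cos (c * ‖v‖) • e0 + (c * Real.sinc (c * ‖v‖)) • ι v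

/-- polar form, for any real radius -/
theorem S_polar {c : ℝ} (hc : c ≠ 0) (e0 : H) (ι : V →L[ℝ] H) {u : V} (hu : ‖u‖ = 1) (r : ℝ) :
    S c e0 ι (r • u) = Real.cos (c * r) • e0 + Real.sin (c * r) • ι u := by
  unfold S
  have h1 : ‖r • u‖ = |r| := by rw [norm_smul, hu, mul_one, Real.norm_eq_abs]
  rw [h1, map_smul, smul_smul]
  rcases lt_trichotomy r 0 with h | h | h
  · rw [abs_of_neg h, mul_neg, Real.cos_neg, Real.sinc_neg,
      Real.sinc_of_ne_zero (mul_ne_zero hc h.ne)]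
    congr 2
    have := h.ne
    field_simp
  · subst h
    simp
  · rw [abs_of_pos h, Real.sinc_of_ne_zero (mul_ne_zero hc h.ne')]
    congr 2
    have := h.ne'
    field_simp

section

variable {e0 : H} {ι : V →L[ℝ] H} (h : Emb e0 ι)
include h

theorem Emb.inner_pair (a b : ℝ) (v w : V) :
    (inner ℝ (a • e0 + ι v) (b • e0 + ι w) : ℝ) = a * b + inner ℝ v w := by
  have h1 : (inner ℝ e0 e0 : ℝ) = 1 := by rw [real_inner_self_eq_norm_sq, h.unit, one_pow]
  have h2 : (inner ℝ (ι v) e0 : ℝ) = 0 := by rw [real_inner_comm, h.orth]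
  rw [inner_add_left, inner_add_right, inner_add_right, real_inner_smul_left,
    real_inner_smul_right, real_inner_smul_left, real_inner_smul_right, h1, h2, h.orth, h.inn]
  ring

theorem Emb.norm_sq (a : ℝ) (v : V) : ‖a • e0 + ι v‖ ^ 2 = a ^ 2 + ‖v‖ ^ 2 := by
  rw [← real_inner_self_eq_norm_sq, h.inner_pair, real_inner_self_eq_norm_sq]
  ring

theorem Emb.pair_inj {a b : ℝ} {v w : V} (hab : a • e0 + ι v = b • e0 + ι w) :
    a = b ∧ v = w := by
  have h1 := h.norm_sq (a - b) (v - w)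
  have h2 : (a - b) • e0 + ι (v - w) = 0 := by
    rw [sub_smul, map_sub, ← sub_eq_zero.2 hab]
    abel
  rw [h2, norm_zero] at h1
  have h3 : (a - b) ^ 2 = 0 := by nlinarith [sq_nonneg (a - b), sq_nonneg ‖v - w‖]
  have h4 : ‖v - w‖ ^ 2 = 0 := by nlinarith [sq_nonneg (a - b), sq_nonneg ‖v - w‖]
  exact ⟨sub_eq_zero.1 (pow_eq_zero_iff two_ne_zero |>.1 h3),
    sub_eq_zero.1 (norm_eq_zero.1 (pow_eq_zero_iff two_ne_zero |>.1 h4))⟩

theorem S_eq (c : ℝ) (v : V) :
    S c e0 ι v = Real.cos (c * ‖v‖) • e0 + ι ((c * Real.sinc (c * ‖v‖)) • v) := by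
  unfold S
  rw [map_smul]

theorem inner_e0_S (c : ℝ) (v : V) : (inner ℝ e0 (S c e0 ι v) : ℝ) = Real.cos (c * ‖v‖) := by
  have h1 := h.inner_pair 1 (Real.cos (c * ‖v‖)) 0 ((c * Real.sinc (c * ‖v‖)) • v)
  rw [one_smul, map_zero, add_zero, ← S_eq h, inner_zero_left, one_mul, add_zero] at h1
  exact h1

theorem norm_S {c : ℝ} (hc : c ≠ 0) (v : V) : ‖S c e0 ι v‖ = 1 := by
  have h3 : ‖S c e0 ι v‖ ^ 2 = Real.cos (c * ‖v‖) ^ 2 +
      (c * Real.sinc (c * ‖v‖)) ^ 2 * ‖v‖ ^ 2 := by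
    rw [S_eq h, h.norm_sq, norm_smul, mul_pow, Real.norm_eq_abs, sq_abs]
  have h4 : (c * Real.sinc (c * ‖v‖)) ^ 2 * ‖v‖ ^ 2 = Real.sin (c * ‖v‖) ^ 2 := by
    rcases eq_or_ne v 0 with rfl | hv
    · simp
    · have h5 : c * ‖v‖ ≠ 0 := mul_ne_zero hc (norm_ne_zero_iff.2 hv)
      rw [Real.sinc_of_ne_zero h5]
      field_simp
  rw [h4, Real.cos_sq_add_sin_sq] at h3
  exact (pow_eq_one_iff_of_nonneg (norm_nonneg _) two_ne_zero).1 h3

/-- the inner product of two points on a geodesic through the pole -/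
theorem inner_S_line {c : ℝ} (hc : c ≠ 0) {u : V} (hu : ‖u‖ = 1) (r s : ℝ) :
    (inner ℝ (S c e0 ι (r • u)) (S c e0 ι (s • u)) : ℝ) = Real.cos (c * (r - s)) := by
  rw [S_polar hc e0 ι hu, S_polar hc e0 ι hu, ← map_smul, ← map_smul, h.inner_pair,
    real_inner_smul_left, real_inner_smul_right, real_inner_self_eq_norm_sq, hu, mul_sub,
    Real.cos_sub]
  ring

/-- the derivative of `S` along a curve -/
theorem deriv_S {c : ℝ} (hc : c ≠ 0) {η : ℝ → V} {t : ℝ} {η' : V} (hη : HasDerivAt η η' t)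
    {r : ℝ} (hr0 : 0 < r) {u : V} (hu1 : ‖u‖ = 1) (hu : η t = r • u) {a : ℝ}
    (ha : inner ℝ u η' = a) :
    ∃ z' : H, HasDerivAt (fun s => S c e0 ι (η s)) z' t ∧
      ‖z'‖ ^ 2 = (c * a) ^ 2 + (Real.sin (c * r) / r) ^ 2 * ‖η' - a • u‖ ^ 2 := by
  have hr : ‖η t‖ = r := by rw [hu, norm_smul, hu1, mul_one, Real.norm_of_nonneg hr0.le]
  have huu : (inner ℝ u u : ℝ) = 1 := by rw [real_inner_self_eq_norm_sq, hu1, one_pow]
  have huw : inner ℝ u (η' - a • u) = (0 : ℝ) := by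
    rw [inner_sub_right, inner_smul_right, huu, ha]
    ring
  have hnorm : HasDerivAt (fun s => ‖η s‖) a t := by
    have h1 := (hη.norm_sq).sqrt (by
      rw [hr]
      positivity)
    have h2 : (fun s => √(‖η s‖ ^ 2)) = fun s => ‖η s‖ :=
      funext fun s => Real.sqrt_sq (norm_nonneg _)
    rw [h2, hr, Real.sqrt_sq hr0.le, hu, inner_smul_left, ha] at h1
    have h3 : 2 * ((starRingEnd ℝ) r * a) / (2 * r) = a := by
      rw [RCLike.conj_to_real]
      field_simp
    rw [h3] at h1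
    exact h1
  have hcos : HasDerivAt (fun s => Real.cos (c * ‖η s‖)) (-Real.sin (c * r) * (c * a)) t := by
    have h1 := (hnorm.const_mul c).cos
    rw [hr] at h1
    exact h1
  have hsin : HasDerivAt (fun s => Real.sin (c * ‖η s‖)) (Real.cos (c * r) * (c * a)) t := by
    have h1 := (hnorm.const_mul c).sin
    rw [hr] at h1
    exact h1
  have hquo : HasDerivAt (fun s => Real.sin (c * ‖η s‖) / ‖η s‖)
      ((Real.cos (c * r) * (c * a) * r - Real.sin (c * r) * a) / r ^ 2) t := by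
    have h1 := hsin.div hnorm (by rw [hr]; exact hr0.ne')
    rw [hr] at h1
    exact h1
  have hS : (fun s => S c e0 ι (η s)) =ᶠ[𝓝 t] fun s =>
      Real.cos (c * ‖η s‖) • e0 + (Real.sin (c * ‖η s‖) / ‖η s‖) • ι (η s) := by
    have h1 : ∀ᶠ s in 𝓝 t, η s ≠ 0 := by
      refine hη.continuousAt.eventually_ne ?_
      rw [← norm_ne_zero_iff, hr]
      exact hr0.ne'
    filter_upwards [h1] with s hs
    have h2 : ‖η s‖ ≠ 0 := norm_ne_zero_iff.2 hs
    unfold S
    rw [Real.sinc_of_ne_zero (mul_ne_zero hc h2)]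
    congr 2
    field_simp
  have hd := ((hcos.smul_const e0).add
    (hquo.smul (ι.hasFDerivAt.comp_hasDerivAt t hη))).congr_of_eventuallyEq hS
  have h5 : HasDerivAt (fun s => S c e0 ι (η s))
      ((-Real.sin (c * r) * (c * a)) • e0 +
        ι ((Real.cos (c * r) * (c * a)) • u + (Real.sin (c * r) / r) • (η' - a • u))) t := by
    refine hd.congr_deriv ?_
    have h2 : ι (η t) = r • ι u := by rw [hu, map_smul]
    simp only [Function.comp_apply, hr, h2, map_add, map_smul, map_sub]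
    have hr' := hr0.ne'
    match_scalars
    · ring
    · field_simp
    · field_simp
      ring
  refine ⟨_, h5, ?_⟩
  rw [h.norm_sq, norm_add_sq_real, real_inner_smul_left, real_inner_smul_right, huw, norm_smul,
    norm_smul, hu1, Real.norm_eq_abs, Real.norm_eq_abs, mul_one, sq_abs,
    mul_pow |Real.sin (c * r) / r|, sq_abs]
  have h6 := Real.cos_sq_add_sin_sq (c * r)
  linear_combination (c * a) ^ 2 * h6

/-- the logarithm -/
theorem S_log {c : ℝ} (hc : 0 < c) {α : ℝ} {y : V} (hy : y ≠ 0) (h1 : α ^ 2 + ‖y‖ ^ 2 = 1) :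
    0 < Real.arccos α ∧ Real.arccos α < Real.pi ∧
    S c e0 ι ((Real.arccos α / c) • (‖y‖⁻¹ • y)) = α • e0 + ι y := by
  have hy0 : 0 < ‖y‖ := norm_pos_iff.2 hy
  have hα1 : α < 1 := by nlinarith
  have hα2 : -1 < α := by nlinarith
  have hs' : √(1 - α ^ 2) = ‖y‖ := by
    rw [← h1, add_sub_cancel_left, Real.sqrt_sq hy0.le]
  have hu1 : ‖‖y‖⁻¹ • y‖ = 1 := by
    rw [norm_smul, norm_inv, norm_norm, inv_mul_cancel₀ hy0.ne']
  refine ⟨Real.arccos_pos.2 hα1, Real.arccos_lt_pi.2 hα2, ?_⟩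
  rw [S_polar hc.ne' e0 ι hu1]
  have h2 : c * (Real.arccos α / c) = Real.arccos α := by field_simp
  rw [h2, Real.cos_arccos hα2.le hα1.le, Real.sin_arccos, hs', map_smul, smul_smul,
    mul_inv_cancel₀ hy0.ne', one_smul]

/-- every unit vector is of the form `S v` with `c ‖v‖ ≤ π` -/
theorem S_surj {c : ℝ} (hc : 0 < c) {u : V} (hu : ‖u‖ = 1) {z : H} (hz : ‖z‖ = 1) :
    ∃ v : V, c * ‖v‖ ≤ Real.pi ∧ S c e0 ι v = z := by
  obtain ⟨α, y, rfl⟩ := h.surj z
  have h1 := h.norm_sq α y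
  rw [hz, one_pow] at h1
  rcases eq_or_ne y 0 with rfl | hy
  · rw [norm_zero] at h1
    have h2 : (α - 1) * (α + 1) = 0 := by linarith
    rcases mul_eq_zero.1 h2 with h3 | h3
    · refine ⟨(0 : ℝ) • u, by rw [zero_smul, norm_zero, mul_zero]; positivity, ?_⟩
      rw [S_polar hc.ne' e0 ι hu, sub_eq_zero.1 h3]
      simp
    · refine ⟨(Real.pi / c) • u, ?_, ?_⟩
      · rw [norm_smul, hu, mul_one, Real.norm_of_nonneg (by positivity)]
        exact le_of_eq (by field_simp)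
      · have h4 : c * (Real.pi / c) = Real.pi := by field_simp
        have h5 : α = -1 := by linarith
        rw [S_polar hc.ne' e0 ι hu, h4, h5]
        simp
  · obtain ⟨h2, h3, h4⟩ := S_log h hc hy h1.symm
    refine ⟨_, ?_, h4⟩
    have hy0 : 0 < ‖y‖ := norm_pos_iff.2 hy
    rw [norm_smul, norm_smul, norm_inv, norm_norm, inv_mul_cancel₀ hy0.ne', mul_one,
      Real.norm_of_nonneg (by positivity)]
    have h5 : c * (Real.arccos α / c) = Real.arccos α := by field_simp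
    rw [h5]
    exact h3.le

end

/-- the embedding of `V` in `ℝ ⊕ V` -/
theorem exists_emb [FiniteDimensional ℝ V] {n : ℕ} (hn : finrank ℝ V = n) :
    ∃ ι : V →L[ℝ] EuclideanSpace ℝ (Fin (n + 1)), Emb (EuclideanSpace.single 0 1) ι := by
  let b : OrthonormalBasis (Fin n) ℝ V := (stdOrthonormalBasis ℝ V).reindex (finCongr hn)
  let L : V →ₗ[ℝ] EuclideanSpace ℝ (Fin (n + 1)) :=
    { toFun := fun v => WithLp.toLp 2 (Fin.cons 0 (fun i => b.repr v i))
      map_add' := fun v w => by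
        ext i
        refine Fin.cases ?_ (fun i => ?_) i
        · simp
        · simp
      map_smul' := fun r v => by
        ext i
        refine Fin.cases ?_ (fun i => ?_) i
        · simp
        · simp }
  have hL0 : ∀ v, L v 0 = 0 := fun v => rfl
  have hLs : ∀ v i, L v (Fin.succ i) = b.repr v i := fun v i => rfl
  refine ⟨LinearMap.toContinuousLinearMap L, ?_, ?_, ?_, ?_⟩
  · simp
  · intro v
    show (inner ℝ (EuclideanSpace.single 0 1) (L v) : ℝ) = 0
    rw [EuclideanSpace.inner_single_left, hL0]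
    simp
  · intro v w
    show (inner ℝ (L v) (L w) : ℝ) = _
    rw [PiLp.inner_apply, Fin.sum_univ_succ, hL0, hL0, ← b.repr.inner_map_map, PiLp.inner_apply]
    simp [hLs]
  · intro z
    refine ⟨z 0, b.repr.symm (WithLp.toLp 2 fun i => z (Fin.succ i)), ?_⟩
    show z = z 0 • EuclideanSpace.single 0 1 +
      L (b.repr.symm (WithLp.toLp 2 fun i => z (Fin.succ i)))
    ext i
    refine Fin.cases ?_ (fun i => ?_) i
    · simp [hL0]
    · simp [hLs]

/-- great circles -/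
theorem exists_arc {z₀ z₁ : H} (h0 : ‖z₀‖ = 1) (h1 : ‖z₁‖ = 1)
    (hlt : |(inner ℝ z₀ z₁ : ℝ)| < 1) :
    ∃ a b : ℝ, b ≠ 0 ∧ ‖a • z₀ + b • z₁‖ = 1 ∧ (inner ℝ z₀ (a • z₀ + b • z₁) : ℝ) = 0 ∧
      Real.cos (Real.arccos (inner ℝ z₀ z₁)) • z₀ +
        Real.sin (Real.arccos (inner ℝ z₀ z₁)) • (a • z₀ + b • z₁) = z₁ := by
  set x : ℝ := inner ℝ z₀ z₁ with hx
  obtain ⟨h2, h3⟩ := abs_lt.1 hlt
  have h4 : 0 < 1 - x ^ 2 := by nlinarith
  set s : ℝ := √(1 - x ^ 2) with hs
  have hs0 : 0 < s := Real.sqrt_pos.2 h4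
  have hs2 : s ^ 2 = 1 - x ^ 2 := Real.sq_sqrt h4.le
  have h00 : (inner ℝ z₀ z₀ : ℝ) = 1 := by rw [real_inner_self_eq_norm_sq, h0, one_pow]
  have h11 : (inner ℝ z₁ z₁ : ℝ) = 1 := by rw [real_inner_self_eq_norm_sq, h1, one_pow]
  have h10 : (inner ℝ z₁ z₀ : ℝ) = x := by rw [real_inner_comm]
  refine ⟨-x / s, 1 / s, by positivity, ?_, ?_, ?_⟩
  · refine (pow_eq_one_iff_of_nonneg (norm_nonneg _) two_ne_zero).1 ?_
    rw [← real_inner_self_eq_norm_sq, inner_add_left, inner_add_right, inner_add_right,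
      real_inner_smul_left, real_inner_smul_right, real_inner_smul_left, real_inner_smul_right,
      real_inner_smul_left, real_inner_smul_right, real_inner_smul_left, real_inner_smul_right,
      h00, h11, h10, ← hx]
    field_simp
    linarith
  · rw [inner_add_right, real_inner_smul_right, real_inner_smul_right, h00, ← hx]
    field_simp
    ring
  · rw [Real.cos_arccos h2.le h3.le, Real.sin_arccos, ← hs]
    have := hs0.ne'
    match_scalars
    · field_simp
      ring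
    · field_simp

theorem arccos_cos_cases {x : ℝ} (h0 : 0 ≤ x) (h1 : x ≤ 2 * Real.pi) :
    Real.arccos (Real.cos x) = x ∨ Real.arccos (Real.cos x) = 2 * Real.pi - x := by
  rcases le_total x Real.pi with h | h
  · exact Or.inl (Real.arccos_cos h0 h)
  · right
    rw [← Real.cos_two_pi_sub]
    exact Real.arccos_cos (by linarith) (by linarith)

end

end Vale.Agent.P231Z.Sph
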