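import Vale.Agent.P231Z.Sph.Frame
import Vale.Agent.P231Z.Sph.Pure

/-! P231: if the metric in normal coordinates at one point is that of a round sphere, the
distance is bounded by the spherical distance. -/

set_option maxSynthPendingDepth 3
set_option linter.unusedSectionVars false

open Bundle Manifold Set Filter Module
open scoped ContDiff Manifold Topology

namespace Vale.Agent.P231Z.Sph

noncomputable section

open Vale.Agent.P234 Vale.Agent.P231 Vale.Agent.P231.H703 Vale.Agent.P231.H775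
  Vale.Agent.P231.H512

variable {E : Type*} [NormedAddCommGroup E] [NormedSpace ℝ E] [FiniteDimensional ℝ E]
  {M : Type*} [MetricSpace M] [ChartedSpace E M]
  [RiemannianBundle (fun x : M => TangentSpace 𝓘(ℝ, E) x)]
  [IsManifold 𝓘(ℝ, E) ∞ M]
  [IsContMDiffRiemannianBundle 𝓘(ℝ, E) ∞ E (fun x : M => TangentSpace 𝓘(ℝ, E) x)]
  {e : ∀ x : M, TangentSpace 𝓘(ℝ, E) x → M}
  [CompactSpace M] [ConnectedSpace M] [IsRiemannianManifold 𝓘(ℝ, E) M]
  {H : Type*} [NormedAddCommGroup H] [InnerProductSpace ℝ H]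

/-- the metric in normal coordinates at `p` is that of the round sphere of curvature `k ^ 2` -/
def RoundAt (e : ∀ x : M, TangentSpace 𝓘(ℝ, E) x → M) (p : M) (k : ℝ) : Prop :=
  ∀ (u w : E) (r : ℝ), nm p u = 1 → 0 < r → k * r < Real.pi →
    nm (e p (r • u : E)) (dE e p (r • u) w) ^ 2 =
      ip p u w ^ 2 + (Real.sin (k * r) / (k * r)) ^ 2 * nm p (w - ip p u w • u) ^ 2

variable {p : M} {k : ℝ} {e0 : H} {ι : TangentSpace 𝓘(ℝ, E) p →L[ℝ] H}

/-- the derivative of `S` has the right length -/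
theorem speed (hk : 0 < k) (hR : RoundAt e p k) (h : Emb e0 ι)
    {η : ℝ → TangentSpace 𝓘(ℝ, E) p} {t : ℝ} {η' : TangentSpace 𝓘(ℝ, E) p}
    (hη : HasDerivAt η η' t) {r : ℝ} (hr0 : 0 < r) (hr : k * r < Real.pi)
    {u : TangentSpace 𝓘(ℝ, E) p} (hu1 : ‖u‖ = 1) (hu : η t = r • u) :
    ∃ z' : H, HasDerivAt (fun s => S k e0 ι (η s)) z' t ∧
      ‖z'‖ = k * nm (E := E) (e p (η t)) (dE (E := E) e p (η t) η') := by
  set a : ℝ := inner ℝ u η' with ha
  obtain ⟨z', h1, h2⟩ := deriv_S h hk.ne' hη hr0 hu1 hu ha.symm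
  refine ⟨z', h1, ?_⟩
  have h3 : nm (E := E) (e p (η t)) (dE (E := E) e p (η t) η') ^ 2 = a ^ 2 +
      (Real.sin (k * r) / (k * r)) ^ 2 * ‖η' - a • u‖ ^ 2 := by
    rw [hu]
    exact hR u η' r hu1 hr0 hr
  have h10 : ‖z'‖ ^ 2 = (k * nm (E := E) (e p (η t)) (dE (E := E) e p (η t) η')) ^ 2 := by
    have h4 : (k * nm (E := E) (e p (η t)) (dE (E := E) e p (η t) η')) ^ 2 = k ^ 2 *
        (a ^ 2 + (Real.sin (k * r) / (k * r)) ^ 2 * ‖η' - a • u‖ ^ 2) :=
      (mul_pow _ _ _).trans (congrArg (fun x => k ^ 2 * x) h3)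
    refine Eq.trans ?_ h4.symm
    rw [h2]
    have := hk.ne'
    have := hr0.ne'
    field_simp
  exact (sq_eq_sq₀ (norm_nonneg _) (mul_nonneg hk.le (nm_nonneg _ _))).1 h10

/-- the lift of a great circle -/
def vv (k α₀ α₂ : ℝ) (y₀ y₂ : TangentSpace 𝓘(ℝ, E) p) (t : ℝ) : TangentSpace 𝓘(ℝ, E) p :=
  (Real.arccos (Real.cos t * α₀ + Real.sin t * α₂) / k) •
    (‖Real.cos t • y₀ + Real.sin t • y₂‖⁻¹ • (Real.cos t • y₀ + Real.sin t • y₂))

theorem arc_le (F : Facts e) (hk : 0 < k) (hR : RoundAt e p k) (h : Emb e0 ι) {α₀ α₂ : ℝ}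
    {y₀ y₂ : TangentSpace 𝓘(ℝ, E) p} (h0 : ‖α₀ • e0 + ι y₀‖ = 1) (h2 : ‖α₂ • e0 + ι y₂‖ = 1)
    (h02 : (inner ℝ (α₀ • e0 + ι y₀) (α₂ • e0 + ι y₂) : ℝ) = 0)
    (hind : ∀ a b : ℝ, a • y₀ + b • y₂ = 0 → a = 0 ∧ b = 0) {θ : ℝ} (hθ : 0 ≤ θ) :
    dist (e p (vv k α₀ α₂ y₀ y₂ 0)) (e p (vv k α₀ α₂ y₀ y₂ θ)) ≤ 1 / k * (θ - 0) := by
  set z₀ := α₀ • e0 + ι y₀ with hz₀
  set z₂ := α₂ • e0 + ι y₂ with hz₂
  have hpy : ∀ a b : ℝ, ‖a • z₀ + b • z₂‖ ^ 2 = a ^ 2 + b ^ 2 := fun a b => by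
    rw [norm_add_sq_real, real_inner_smul_left, real_inner_smul_right, h02, norm_smul, norm_smul,
      h0, h2, Real.norm_eq_abs, Real.norm_eq_abs, mul_one, mul_one, sq_abs, sq_abs]
    ring
  have hgd : ∀ t : ℝ, Real.cos t • z₀ + Real.sin t • z₂ =
      (Real.cos t * α₀ + Real.sin t * α₂) • e0 + ι (Real.cos t • y₀ + Real.sin t • y₂) := by
    intro t
    rw [hz₀, hz₂, map_add, map_smul, map_smul]
    module
  have hy : ∀ t : ℝ, Real.cos t • y₀ + Real.sin t • y₂ ≠ 0 := fun t ht => by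
    obtain ⟨h3, h4⟩ := hind _ _ ht
    have h5 := Real.cos_sq_add_sin_sq t
    rw [h3, h4] at h5
    norm_num at h5
  have hsum : ∀ t : ℝ, (Real.cos t * α₀ + Real.sin t * α₂) ^ 2 +
      ‖Real.cos t • y₀ + Real.sin t • y₂‖ ^ 2 = 1 := fun t => by
    rw [← h.norm_sq, ← hgd, hpy, Real.cos_sq_add_sin_sq]
  have hlog := fun t : ℝ => S_log h hk (hy t) (hsum t)
  have hS : (fun s => S k e0 ι (vv k α₀ α₂ y₀ y₂ s)) =
      fun s => Real.cos s • z₀ + Real.sin s • z₂ :=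
    funext fun s => (hlog s).2.2.trans (hgd s).symm
  have hs : ∀ t : ℝ, ContDiffAt ℝ ∞ (vv k α₀ α₂ y₀ y₂) t := fun t => by
    have hα : ContDiff ℝ ∞ fun t : ℝ => Real.cos t * α₀ + Real.sin t * α₂ :=
      (Real.contDiff_cos.mul contDiff_const).add (Real.contDiff_sin.mul contDiff_const)
    have hyy : ContDiff ℝ ∞ fun t : ℝ => Real.cos t • y₀ + Real.sin t • y₂ :=
      (Real.contDiff_cos.smul contDiff_const).add (Real.contDiff_sin.smul contDiff_const)
    have hy0 : 0 < ‖Real.cos t • y₀ + Real.sin t • y₂‖ := norm_pos_iff.2 (hy t)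
    have h3 := hsum t
    have h4 : ContDiffAt ℝ ∞ (fun t : ℝ => Real.arccos (Real.cos t * α₀ + Real.sin t * α₂)) t :=
      (Real.contDiffAt_arccos (by nlinarith) (by nlinarith)).comp t hα.contDiffAt
    have h5 : ContDiffAt ℝ ∞ (fun t : ℝ => ‖Real.cos t • y₀ + Real.sin t • y₂‖) t :=
      hyy.contDiffAt.norm ℝ (hy t)
    exact (h4.div_const k).smul ((h5.inv hy0.ne').smul hyy.contDiffAt)
  refine symm_dist_le_of_speed (E := E) (c := fun s => e p (vv k α₀ α₂ y₀ y₂ s)) hθ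
    (by positivity) (fun t _ => ?_) fun t _ => ?_
  · have h10 : ContMDiffAt 𝓘(ℝ, ℝ) 𝓘(ℝ, TangentSpace 𝓘(ℝ, E) p) 1 (vv k α₀ α₂ y₀ y₂) t :=
      ((hs t).of_le (by simp only [WithTop.one_le_coe, le_top])).contMDiffAt
    exact ((contMDiff_exp_fiber F.isExp p).contMDiffAt.of_le
      (by simp only [WithTop.one_le_coe, le_top])).comp t h10
  · have hy0 : 0 < ‖Real.cos t • y₀ + Real.sin t • y₂‖ := norm_pos_iff.2 (hy t)
    have hη : HasDerivAt (vv k α₀ α₂ y₀ y₂) (deriv (vv k α₀ α₂ y₀ y₂) t) t :=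
      ((hs t).differentiableAt (by simp)).hasDerivAt
    obtain ⟨z', h6, h7⟩ := speed hk hR h hη
      (r := Real.arccos (Real.cos t * α₀ + Real.sin t * α₂) / k) (div_pos (hlog t).1 hk)
      (by rw [mul_div_cancel₀ _ hk.ne']; exact (hlog t).2.1)
      (u := ‖Real.cos t • y₀ + Real.sin t • y₂‖⁻¹ • (Real.cos t • y₀ + Real.sin t • y₂))
      (by rw [norm_smul, norm_inv, norm_norm, inv_mul_cancel₀ hy0.ne']) rfl
    rw [hS] at h6
    have h8 : HasDerivAt (fun s => Real.cos s • z₀ + Real.sin s • z₂)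
        ((-Real.sin t) • z₀ + Real.cos t • z₂) t :=
      ((Real.hasDerivAt_cos t).smul_const z₀).add ((Real.hasDerivAt_sin t).smul_const z₂)
    have h9 : ‖z'‖ = 1 := by
      rw [h6.unique h8]
      refine (pow_eq_one_iff_of_nonneg (norm_nonneg _) two_ne_zero).1 ?_
      rw [hpy, neg_sq, Real.sin_sq_add_cos_sq]
    generalize vv k α₀ α₂ y₀ y₂ = v at *
    have h10 : (mfderiv 𝓘(ℝ, ℝ) 𝓘(ℝ, E) (fun s => e p (v s)) t (1 : ℝ) : E) =
        dE e p (v t : E) (deriv v t : E) := mfderiv_exp_curve F.isExp p hη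
    have h11 : nm (E := E) (e p (v t)) (mfderiv 𝓘(ℝ, ℝ) 𝓘(ℝ, E) (fun s => e p (v s)) t (1 : ℝ)) =
        nm (E := E) (e p (v t)) (dE (E := E) e p (v t) (deriv v t)) :=
      congrArg (nm (E := E) (e p (v t))) h10
    refine le_of_eq ?_
    show nm (E := E) (e p (v t)) (mfderiv 𝓘(ℝ, ℝ) 𝓘(ℝ, E) (fun s => e p (v s)) t (1 : ℝ)) = _
    rw [h11, eq_div_iff hk.ne', mul_comm]
    exact h7.symm.trans h9

/-- distances along a geodesic -/
theorem line_le (F : Facts e) {u : TangentSpace 𝓘(ℝ, E) p} (hu : ‖u‖ = 1) {s r : ℝ}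
    (hsr : s ≤ r) : dist (e p (s • u)) (e p (r • u)) ≤ r - s := by
  have hcs : ContMDiff 𝓘(ℝ, ℝ) 𝓘(ℝ, E) ∞ (gam e p (u : E)) := contMDiff_gam F.isExp p u
  have h1 := symm_dist_le_of_speed (E := E) (c := gam e p (u : E)) (ℓ := 1) hsr zero_le_one
    (fun t _ => (hcs.contMDiffAt).of_le (by simp only [WithTop.one_le_coe, le_top]))
    fun t _ => by
      have h1 : nm (E := E) (gam e p (u : E) t)
          (mfderiv 𝓘(ℝ, ℝ) 𝓘(ℝ, E) (gam e p (u : E)) t (1 : ℝ)) =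
          nm (E := E) (gam e p (u : E) t) (vel e p (u : E) t) :=
        congrArg (nm (E := E) (gam e p (u : E) t)) (mfderiv_gam F.isExp p u t)
      rw [h1]
      exact le_of_eq ((nm_vel F p u t).trans hu)
  rw [one_mul] at h1
  exact h1

/-- two points on a geodesic through the pole -/
theorem le_angle_line (F : Facts e) (hk : 0 < k) (h : Emb e0 ι)
    (hc : ∀ u u' : TangentSpace 𝓘(ℝ, E) p, ‖u‖ = 1 → ‖u'‖ = 1 →
      e p ((Real.pi / k) • u) = e p ((Real.pi / k) • u'))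
    {u : TangentSpace 𝓘(ℝ, E) p} (hu : ‖u‖ = 1) {r s : ℝ} (hr : k * |r| ≤ Real.pi)
    (hs : k * |s| ≤ Real.pi) :
    k * dist (e p (r • u)) (e p (s • u)) ≤
      Real.arccos (inner ℝ (S k e0 ι (r • u)) (S k e0 ι (s • u))) := by
  wlog hsr : s ≤ r generalizing r s
  · have h1 := this hs hr (le_of_not_ge hsr)
    rw [dist_comm, real_inner_comm]
    exact h1
  rw [inner_S_line h hk.ne' hu]
  have hr1 : k * r ≤ Real.pi := (mul_le_mul_of_nonneg_left (le_abs_self r) hk.le).trans hr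
  have hs1 : k * -s ≤ Real.pi := (mul_le_mul_of_nonneg_left (neg_le_abs s) hk.le).trans hs
  rcases arccos_cos_cases (x := k * (r - s)) (mul_nonneg hk.le (sub_nonneg.2 hsr))
    (by linarith) with h1 | h1
  · rw [h1, dist_comm]
    exact mul_le_mul_of_nonneg_left (line_le F hu hsr) hk.le
  · rw [h1]
    have h2 : r ≤ Real.pi / k := by rw [le_div_iff₀ hk]; linarith
    have h3 : -(Real.pi / k) ≤ s := by
      rw [neg_le, le_div_iff₀ hk]
      linarith
    have h4 := line_le F hu h2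
    have h5 := line_le F hu h3
    have h6 : e p ((Real.pi / k) • u) = e p (-(Real.pi / k) • u) := by
      rw [hc u (-u) hu (by rw [norm_neg, hu]), smul_neg, neg_smul]
    rw [← h6] at h5
    have h7 := dist_triangle (e p (r • u)) (e p ((Real.pi / k) • u)) (e p (s • u))
    have h8 : k * dist (e p (r • u)) (e p (s • u)) ≤
        k * ((Real.pi / k - r) + (s - -(Real.pi / k))) :=
      mul_le_mul_of_nonneg_left (by linarith) hk.le
    have h9 : k * ((Real.pi / k - r) + (s - -(Real.pi / k))) = 2 * Real.pi - k * (r - s) := by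
      field_simp
      ring
    rwa [h9] at h8

theorem polar {u₀ : TangentSpace 𝓘(ℝ, E) p} (hu₀ : ‖u₀‖ = 1) (v : TangentSpace 𝓘(ℝ, E) p) :
    ∃ u : TangentSpace 𝓘(ℝ, E) p, ‖u‖ = 1 ∧ v = ‖v‖ • u := by
  rcases eq_or_ne v 0 with rfl | hv
  · exact ⟨u₀, hu₀, by rw [norm_zero, zero_smul]⟩
  · have h1 : ‖v‖ ≠ 0 := norm_ne_zero_iff.2 hv
    exact ⟨‖v‖⁻¹ • v, by rw [norm_smul, norm_inv, norm_norm, inv_mul_cancel₀ h1],
      by rw [smul_smul, mul_inv_cancel₀ h1, one_smul]⟩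

/-- **The distance is bounded by the spherical distance.** -/
theorem le_angle (F : Facts e) (hk : 0 < k) (hR : RoundAt e p k) (h : Emb e0 ι)
    (hc : ∀ u u' : TangentSpace 𝓘(ℝ, E) p, ‖u‖ = 1 → ‖u'‖ = 1 →
      e p ((Real.pi / k) • u) = e p ((Real.pi / k) • u'))
    {u u' : TangentSpace 𝓘(ℝ, E) p} (hu : ‖u‖ = 1) (hu' : ‖u'‖ = 1) {r s : ℝ}
    (hr0 : 0 ≤ r) (hs0 : 0 ≤ s) (hr : k * r ≤ Real.pi) (hs : k * s ≤ Real.pi) :
    k * dist (e p (r • u)) (e p (s • u')) ≤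
      Real.arccos (inner ℝ (S k e0 ι (r • u)) (S k e0 ι (s • u'))) := by
  have hra : k * |r| ≤ Real.pi := by rwa [abs_of_nonneg hr0]
  have hsa : k * |s| ≤ Real.pi := by rwa [abs_of_nonneg hs0]
  -- poles
  have hpole : ∀ (t : ℝ) (a b : TangentSpace 𝓘(ℝ, E) p), ‖a‖ = 1 → ‖b‖ = 1 →
      t = 0 ∨ k * t = Real.pi → e p (t • a) = e p (t • b) ∧
        S k e0 ι (t • a) = S k e0 ι (t • b) := by
    intro t a b ha hb ht
    rcases ht with rfl | ht
    · rw [zero_smul, zero_smul]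
      exact ⟨rfl, rfl⟩
    · have h1 : t = Real.pi / k := by rw [eq_div_iff hk.ne', mul_comm, ht]
      refine ⟨by rw [h1]; exact hc a b ha hb, ?_⟩
      rw [S_polar hk.ne' e0 ι ha, S_polar hk.ne' e0 ι hb, ht, Real.sin_pi, zero_smul, zero_smul]
  by_cases hr' : r = 0 ∨ k * r = Real.pi
  · obtain ⟨h1, h2⟩ := hpole r u u' hu hu' hr'
    rw [h1, h2]
    exact le_angle_line F hk h hc hu' hra hsa
  by_cases hs' : s = 0 ∨ k * s = Real.pi
  · obtain ⟨h1, h2⟩ := hpole s u' u hu' hu hs'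
    rw [h1, h2]
    exact le_angle_line F hk h hc hu hra hsa
  by_cases huu : u' = u
  · rw [huu]
    exact le_angle_line F hk h hc hu hra hsa
  by_cases huu' : u' = -u
  · have h1 : s • u' = (-s) • u := by rw [huu', smul_neg, neg_smul]
    rw [h1]
    exact le_angle_line F hk h hc hu hra (by rwa [abs_neg])
  rw [not_or] at hr' hs'
  have hr1 : 0 < r := lt_of_le_of_ne hr0 (Ne.symm hr'.1)
  have hs1 : 0 < s := lt_of_le_of_ne hs0 (Ne.symm hs'.1)
  have hr2 : k * r < Real.pi := lt_of_le_of_ne hr hr'.2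
  have hs2 : k * s < Real.pi := lt_of_le_of_ne hs hs'.2
  have hsr : 0 < Real.sin (k * r) := Real.sin_pos_of_pos_of_lt_pi (by positivity) hr2
  have hss : 0 < Real.sin (k * s) := Real.sin_pos_of_pos_of_lt_pi (by positivity) hs2
  have hind : ∀ a b : ℝ, a • u + b • u' = 0 → a = 0 ∧ b = 0 := by
    intro a b hab
    have h1 : a • u = -(b • u') := eq_neg_of_add_eq_zero_left hab
    have h2 := congrArg norm h1
    rw [norm_neg, norm_smul, norm_smul, hu, hu', mul_one, mul_one, Real.norm_eq_abs,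
      Real.norm_eq_abs] at h2
    have h3 : b = 0 := by
      by_contra hb
      rcases abs_eq_abs.1 h2 with h4 | h4
      · apply huu'
        rw [h4, ← smul_neg] at h1
        rw [smul_right_injective _ hb h1, neg_neg]
      · apply huu
        rw [h4, neg_smul, neg_inj] at h1
        exact (smul_right_injective _ hb h1).symm
    rw [h3, abs_zero] at h2
    exact ⟨abs_eq_zero.1 h2, h3⟩
  have hz₀ : S k e0 ι (r • u) = Real.cos (k * r) • e0 + ι (Real.sin (k * r) • u) := by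
    rw [S_polar hk.ne' e0 ι hu, map_smul]
  have hz₁ : S k e0 ι (s • u') = Real.cos (k * s) • e0 + ι (Real.sin (k * s) • u') := by
    rw [S_polar hk.ne' e0 ι hu', map_smul]
  have h0 := norm_S h hk.ne' (r • u)
  have h1 := norm_S h hk.ne' (s • u')
  have hlt : |(inner ℝ (S k e0 ι (r • u)) (S k e0 ι (s • u')) : ℝ)| < 1 := by
    have h2 := abs_real_inner_le_norm (S k e0 ι (r • u)) (S k e0 ι (s • u'))
    rw [h0, h1, mul_one] at h2
    refine lt_of_le_of_ne h2 fun h3 => ?_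
    rcases (abs_eq zero_le_one).1 h3 with h4 | h4
    · have h5 := (inner_eq_one_iff_of_norm_eq_one (𝕜 := ℝ) h0 h1).1 h4
      rw [hz₀, hz₁] at h5
      have h6 := (h.pair_inj h5).2
      have h7 := hind (Real.sin (k * r)) (-Real.sin (k * s)) (by rw [h6, neg_smul, add_neg_cancel])
      exact hsr.ne' h7.1
    · have h5 := (inner_eq_one_iff_of_norm_eq_one (𝕜 := ℝ) h0
        ((norm_neg (S k e0 ι (s • u'))).trans h1)).1 (by rw [inner_neg_right, h4, neg_neg])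
      rw [hz₀, hz₁, neg_add, ← neg_smul, ← map_neg] at h5
      have h6 := (h.pair_inj h5).2
      have h7 := hind (Real.sin (k * r)) (Real.sin (k * s)) (by rw [h6, neg_add_cancel])
      exact hsr.ne' h7.1
  obtain ⟨a, b, hb, h2, h3, h4⟩ := exists_arc h0 h1 hlt
  set θ := Real.arccos (inner ℝ (S k e0 ι (r • u)) (S k e0 ι (s • u'))) with hθ
  have hz₂ : a • S k e0 ι (r • u) + b • S k e0 ι (s • u') =
      (a * Real.cos (k * r) + b * Real.cos (k * s)) • e0 +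
        ι (a • Real.sin (k * r) • u + b • Real.sin (k * s) • u') := by
    rw [hz₀, hz₁, map_add, map_smul ι a, map_smul ι b]
    module
  rw [hz₂] at h2 h3 h4
  rw [hz₀] at h0 h3 h4
  have h5 := arc_le F hk hR h h0 h2 h3 (fun a' b' hab => by
    have h6 := hind ((a' + b' * a) * Real.sin (k * r)) (b' * b * Real.sin (k * s)) (by
      rw [← hab]
      module)
    have h7 : b' = 0 :=
      (mul_eq_zero.1 ((mul_eq_zero.1 h6.2).resolve_right hss.ne')).resolve_right hb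
    have h8 := (mul_eq_zero.1 h6.1).resolve_right hsr.ne'
    rw [h7, zero_mul, add_zero] at h8
    exact ⟨h8, h7⟩) (θ := θ) (Real.arccos_nonneg _)
  have hend : ∀ (t ρ : ℝ) (a : TangentSpace 𝓘(ℝ, E) p) (α₀ α₂ : ℝ)
      (y₀ y₂ : TangentSpace 𝓘(ℝ, E) p), ‖a‖ = 1 → 0 < ρ → k * ρ < Real.pi →
      Real.cos t * α₀ + Real.sin t * α₂ = Real.cos (k * ρ) →
      Real.cos t • y₀ + Real.sin t • y₂ = Real.sin (k * ρ) • a →
      vv k α₀ α₂ y₀ y₂ t = ρ • a := by
    intro t ρ a α₀ α₂ y₀ y₂ ha hρ hρ' e1 e2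
    have hsρ : 0 < Real.sin (k * ρ) := Real.sin_pos_of_pos_of_lt_pi (by positivity) hρ'
    unfold vv
    rw [e1, e2, Real.arccos_cos (by positivity) hρ'.le, norm_smul, ha, mul_one,
      Real.norm_of_nonneg hsρ.le, smul_smul _ (Real.sin (k * ρ)), inv_mul_cancel₀ hsρ.ne', one_smul,
      mul_div_cancel_left₀ _ hk.ne']
  have h6 : (Real.cos θ * Real.cos (k * r) +
      Real.sin θ * (a * Real.cos (k * r) + b * Real.cos (k * s))) • e0 +
      ι (Real.cos θ • Real.sin (k * r) • u +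
        Real.sin θ • (a • Real.sin (k * r) • u + b • Real.sin (k * s) • u')) =
      Real.cos (k * s) • e0 + ι (Real.sin (k * s) • u') := by
    rw [← hz₁, ← h4, map_add, map_smul ι (Real.cos θ), map_smul ι (Real.sin θ)]
    module
  obtain ⟨h7, h8⟩ := h.pair_inj h6
  rw [hend 0 r u _ _ _ _ hu hr1 hr2 (by simp) (by simp), hend θ s u' _ _ _ _ hu' hs1 hs2 h7 h8,
    sub_zero, one_div, le_inv_mul_iff₀ hk] at h5
  exact h5

/-- vector form -/
theorem le_angle' (F : Facts e) (hk : 0 < k) (hR : RoundAt e p k) (h : Emb e0 ι)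
    (hc : ∀ u u' : TangentSpace 𝓘(ℝ, E) p, ‖u‖ = 1 → ‖u'‖ = 1 →
      e p ((Real.pi / k) • u) = e p ((Real.pi / k) • u'))
    {u₀ : TangentSpace 𝓘(ℝ, E) p} (hu₀ : ‖u₀‖ = 1) {v w : TangentSpace 𝓘(ℝ, E) p}
    (hv : k * ‖v‖ ≤ Real.pi) (hw : k * ‖w‖ ≤ Real.pi) :
    k * dist (e p v) (e p w) ≤ Real.arccos (inner ℝ (S k e0 ι v) (S k e0 ι w)) := by
  obtain ⟨u, hu, h1⟩ := polar hu₀ v
  obtain ⟨u', hu', h2⟩ := polar hu₀ w
  have h3 := le_angle F hk hR h hc hu hu' (norm_nonneg v) (norm_nonneg w) hv hw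
  rw [← h1, ← h2] at h3
  exact h3

end

end Vale.Agent.P231Z.Sph
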